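import Vale.Agent.P144DY.Defs

/-!
Clusters: from the lattice to the continuum.
-/

namespace Vale.Agent.P144DY

open Filter Topology Vale.Agent.P144 Vale.Agent.P144Z Vale.Agent.P144DD

theorem fl_bd (a : ℝ) (z : ℂ) : |(((fl a z).1 : ℤ) : ℝ) + 1 / 2 - z.re / a| ≤ 1 / 2 ∧
    |(((fl a z).2 : ℤ) : ℝ) + 1 / 2 - z.im / a| ≤ 1 / 2 := by
  have a1 := Int.floor_le (z.re / a)
  have a2 := Int.lt_floor_add_one (z.re / a)
  have b1 := Int.floor_le (z.im / a)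
  have b2 := Int.lt_floor_add_one (z.im / a)
  unfold fl
  exact ⟨abs_le.2 ⟨by linarith, by linarith⟩, abs_le.2 ⟨by linarith, by linarith⟩⟩

theorem zd_fl {a : ℝ} (ha : 0 < a) (z w : ℂ) :
    (zd (fl a z) (fl a w) : ℝ) ≤ ‖z - w‖ / a + 1 ∧ ‖z - w‖ / a ≤ 2 * zd (fl a z) (fl a w) + 2 := by
  obtain ⟨a1, a2⟩ := fl_bd a z
  obtain ⟨b1, b2⟩ := fl_bd a w
  have c1 : |z.re / a - w.re / a| ≤ ‖z - w‖ / a := by
    rw [← sub_div, abs_div, abs_of_pos ha, ← Complex.sub_re]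
    exact div_le_div_of_nonneg_right (Complex.abs_re_le_norm _) ha.le
  have c2 : |z.im / a - w.im / a| ≤ ‖z - w‖ / a := by
    rw [← sub_div, abs_div, abs_of_pos ha, ← Complex.sub_im]
    exact div_le_div_of_nonneg_right (Complex.abs_im_le_norm _) ha.le
  have c3 : ‖z - w‖ / a ≤ |z.re / a - w.re / a| + |z.im / a - w.im / a| := by
    rw [← sub_div, ← sub_div, abs_div, abs_div, abs_of_pos ha, ← add_div, ← Complex.sub_re,
      ← Complex.sub_im]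
    exact div_le_div_of_nonneg_right (Complex.norm_le_abs_re_add_abs_im _) ha.le
  rw [U4.zd_cast]
  have d1 := le_max_left |(((fl a z).1 : ℤ) : ℝ) - (fl a w).1| |(((fl a z).2 : ℤ) : ℝ) - (fl a w).2|
  have d2 := le_max_right |(((fl a z).1 : ℤ) : ℝ) - (fl a w).1|
    |(((fl a z).2 : ℤ) : ℝ) - (fl a w).2|
  rw [abs_le] at a1 a2 b1 b2 c1 c2 d1 d2
  refine ⟨max_le (abs_le.2 ⟨by linarith, by linarith⟩) (abs_le.2 ⟨by linarith, by linarith⟩),
    c3.trans ?_⟩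
  generalize max |(((fl a z).1 : ℤ) : ℝ) - (fl a w).1| |(((fl a z).2 : ℤ) : ℝ) - (fl a w).2| = t
    at d1 d2 ⊢
  have e1 : |z.re / a - w.re / a| ≤ t + 1 := abs_le.2 ⟨by linarith, by linarith⟩
  have e2 : |z.im / a - w.im / a| ≤ t + 1 := abs_le.2 ⟨by linarith, by linarith⟩
  linarith

theorem ins_fl {a : ℝ} (ha : 0 < a) (z : ℂ) (v : Site) :
    ‖(⟨a * v.1, a * v.2⟩ : ℂ) - z‖ ≤ a * (2 * zd v (fl a z) + 2) := by
  have h := (zd_fl ha ⟨a * v.1, a * v.2⟩ z).2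
  rw [show fl a ⟨a * v.1, a * v.2⟩ = v by simp [fl, mul_div_cancel_left₀ _ ha.ne']] at h
  exact (div_le_iff₀' ha).1 h

theorem resc {a s t c l : ℝ} (ha : 0 < a) (hs : 0 < s) (ht : 0 ≤ t) (hc : 0 ≤ c) (hl : 0 ≤ l)
    (h : s / a ≤ c * t) (n m : ℕ) :
    (a ^ (-(1 / 8) : ℝ)) ^ n * a⁻¹ ^ m * l * (s ^ (1 / 8 : ℝ)) ^ n * s ^ m ≤
      (c ^ (1 / 8 : ℝ)) ^ n * c ^ m * (l * t ^ ((n : ℝ) / 8) * t ^ m) := by
  have e1 : t ^ ((n : ℝ) / 8) = (t ^ (1 / 8 : ℝ)) ^ n := by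
    rw [← Real.rpow_natCast, ← Real.rpow_mul ht]
    congr 1
    ring
  have e2 : a ^ (-(1 / 8) : ℝ) * s ^ (1 / 8 : ℝ) ≤ c ^ (1 / 8 : ℝ) * t ^ (1 / 8 : ℝ) := by
    rw [Real.rpow_neg ha.le, ← div_eq_inv_mul, ← Real.div_rpow hs.le ha.le, ← Real.mul_rpow hc ht]
    exact Real.rpow_le_rpow (by positivity) h (by norm_num)
  have e3 : a⁻¹ * s ≤ c * t := by rwa [← div_eq_inv_mul]
  calc _ = l * ((a ^ (-(1 / 8) : ℝ) * s ^ (1 / 8 : ℝ)) ^ n * (a⁻¹ * s) ^ m) := by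
        simp only [mul_pow]
        ring
    _ ≤ l * ((c ^ (1 / 8 : ℝ) * t ^ (1 / 8 : ℝ)) ^ n * (c * t) ^ m) := by gcongr
    _ = _ := by
        simp only [mul_pow, e1]
        ring

theorem zbm_of {Raw : Finset Site → ℕ → Prop} {q : Par} {J lam β T ρ : ℝ} {D : Set ℂ}
    {b : Option (ℝ → Config)} (hL : ∀ n m : ℕ, n = 0 ∨ m = 0 → Even n → LatX Raw q n m)
    (hr : UL.Rel J lam β q) (hb : StdBC b) (hT : 0 < T) (hρ : 0 < ρ) (h1 : ∀ a > (0 : ℝ),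
      (∀ x, x ∈ disc D a ↔ (⟨a * x.1, a * x.2⟩ : ℂ) ∈ D) ∧ (∀ x ∈ disc D a, a * zd x 0 ≤ T) ∧
        ∀ r : ℕ, 1 ≤ r → a * r ≤ ρ → Raw (disc D a) r) : ZBM D (inDom J lam q.V β D b) := by
  intro n m k hnm hn hk s₀ hs₀
  obtain ⟨c, hc, c1, c2⟩ : ∃ c > (0 : ℝ), 5 * c ≤ s₀ ∧ c ≤ ρ :=
    ⟨min (s₀ / 5) ρ, by positivity, by linarith [min_le_left (s₀ / 5) ρ], min_le_right _ _⟩
  obtain ⟨A, r₀, hL⟩ := hL n m hnm hn J lam β hr (16 * k + 1) ⌈2 * T / c⌉₊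
  have k2 : (2 : ℝ) ≤ k := by exact_mod_cast hk
  refine ⟨((8 * k : ℝ) ^ (1 / 8 : ℝ)) ^ n * (8 * k : ℝ) ^ m * A, 4 * k * (r₀ + 2), c / (r₀ + 1),
    by positivity, ?_⟩
  filter_upwards [Ioo_mem_nhdsGT hc] with a ⟨ha, hac⟩ s s1 s2 p e1 e2 p1 p2 p3
  subst e1 e2
  obtain ⟨d1, d2, d3⟩ := h1 a ha
  have s0 : 0 < s := lt_of_lt_of_le (by positivity) s1
  have r1 : (⌊c / a⌋₊ : ℝ) ≤ c / a := Nat.floor_le (by positivity)
  have r2 : c / a < ⌊c / a⌋₊ + 1 := Nat.lt_floor_add_one _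
  have r3 : 1 ≤ ⌊c / a⌋₊ := Nat.le_floor (by rw [Nat.cast_one, one_le_div ha]; exact hac.le)
  have r4 : ∀ u : ℕ, (u : ℝ) ≤ c / a → u ≤ ⌊c / a⌋₊ := fun u => Nat.le_floor
  generalize ⌊c / a⌋₊ = r at r1 r2 r3 r4
  have r5 : (1 : ℝ) ≤ r := by exact_mod_cast r3
  have t1 : (⌊s / a / (4 * k)⌋₊ : ℝ) ≤ s / a / (4 * k) := Nat.floor_le (by positivity)
  have t2 : s / a / (4 * k) < ⌊s / a / (4 * k)⌋₊ + 1 := Nat.lt_floor_add_one _
  have t3 : r₀ + 2 ≤ ⌊s / a / (4 * k)⌋₊ := Nat.le_floor (by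
    rw [le_div_iff₀ (by positivity), le_div_iff₀ ha]
    push_cast
    linarith)
  generalize ⌊s / a / (4 * k)⌋₊ = t at t1 t2 t3
  have t4 : (r₀ : ℝ) + 2 ≤ t := by exact_mod_cast t3
  have t5 : (0 : ℝ) ≤ r₀ := Nat.cast_nonneg _
  rw [le_div_iff₀ (by positivity)] at t1
  rw [div_lt_iff₀ (by positivity)] at t2
  have t6 : s / a ≤ 8 * k * t := by nlinarith
  have e : (Sum.elim (fun i => fl a (p.x i)) fun k => fl a (p.y k)) =
      fun i => fl a (Sum.elim p.x p.y i) := by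
    funext i
    cases i <;> rfl
  have key := fun b hb => hL t r (by omega) (r4 _ (by
      have u1 : s / a * (r₀ + 1) ≤ c / a := by
        rw [div_mul_eq_mul_div]
        exact div_le_div_of_nonneg_right ((le_div_iff₀ (by positivity)).1 s2) ha.le
      have u2 : (t : ℝ) ≤ s / a := by nlinarith
      push_cast
      nlinarith)) (disc D a) b (fun i => fl a (p.x i)) (fun k => fl a (p.y k)) p.j hb
    (d3 r r3 (((le_div_iff₀' ha).1 r1).trans c2)) (fun v hv => by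
      have : (zd v 0 : ℝ) ≤ (⌈2 * T / c⌉₊ : ℝ) * r := by
        calc (zd v 0 : ℝ) ≤ T / a := by
              rw [le_div_iff₀' ha]
              exact d2 v hv
          _ = 2 * T / c * (c / a / 2) := by field_simp
          _ ≤ _ := mul_le_mul (Nat.le_ceil _) (by linarith) (by positivity) (by positivity)
      exact_mod_cast this) (fun i v hv => by
      rw [e] at hv
      refine (d1 v).2 ((p1 i).2 ?_)
      have u1 := ins_fl ha (Sum.elim p.x p.y i) v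
      have u2 : (zd v (fl a (Sum.elim p.x p.y i)) : ℝ) ≤ r := by exact_mod_cast hv
      have u3 := (le_div_iff₀' ha).1 r1
      rw [Metric.mem_ball, dist_eq_norm]
      nlinarith) (fun i i' hi => by
      rw [e]
      have u1 := (zd_fl ha (Sum.elim p.x p.y i) (Sum.elim p.x p.y i')).2
      have u2 : s / k / a ≤ _ := div_le_div_of_nonneg_right (p3 i i' hi) ha.le
      have u3 : 4 * (t : ℝ) ≤ s / k / a := by
        rw [div_right_comm, le_div_iff₀ (by positivity)]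
        linarith
      have u4 : (t : ℝ) < zd (fl a (Sum.elim p.x p.y i)) (fl a (Sum.elim p.x p.y i')) := by
        linarith
      exact_mod_cast u4) (fun i i' => by
      rw [e]
      have u1 := (zd_fl ha (Sum.elim p.x p.y i) (Sum.elim p.x p.y i')).1
      have u2 : _ ≤ 2 * s / a := div_le_div_of_nonneg_right (p2 i i') ha.le
      rw [mul_div_assoc] at u2
      have u4 : (zd (fl a (Sum.elim p.x p.y i)) (fl a (Sum.elim p.x p.y i')) : ℝ) ≤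
          (16 * k + 1) * t := by linarith
      exact_mod_cast u4)
  have k1 : |lcor (inDom J lam q.V β D b a) (fun i => fl a (p.x i)) (fun k => fl a (p.y k)) p.j| *
      (t : ℝ) ^ ((p.n : ℝ) / 8) * (t : ℝ) ^ p.m ≤ A := by
    rcases hb with rfl | rfl | rfl
    · exact key none (Or.inl rfl)
    · exact key _ (Or.inr rfl)
    · change |lcor (gibbs J lam q.V β (some fun _ => !true) (disc D a)) _ _ _| * _ * _ ≤ _
      rw [U2D.lcor_not (η := fun _ => true) hr.pot, abs_mul, abs_pow, abs_neg, abs_one, one_pow,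
        one_mul]
      exact key _ (Or.inr rfl)
  unfold inDom at *
  rw [U2D.corr_eq, abs_mul, abs_of_nonneg (by positivity)]
  exact (resc ha s0 (Nat.cast_nonneg t) (by positivity) (abs_nonneg _) t6 _ _).trans
    (mul_le_mul_of_nonneg_left k1 (by positivity))

theorem blkB_of (h : LatB) : BlkB := by
  obtain ⟨ε₀, h0, h⟩ := h
  refine ⟨ε₀, h0, fun ε hε h1 => ?_⟩
  obtain ⟨L₀, h⟩ := h ε hε h1
  refine ⟨L₀, fun L hL => ?_⟩
  obtain ⟨η₀, hη, h⟩ := h L hL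
  refine ⟨η₀, hη, fun R => ?_⟩
  obtain ⟨δ₀, hδ, h⟩ := h R
  refine ⟨δ₀, hδ, fun q hR hq J lam β _ hr D b ⟨N, k₀, Raw, g, T, hT, ρ, hρ, d⟩ hb => ?_⟩
  exact zbm_of (h q hR hq Raw N k₀ g) hr hb hT hρ d

end Vale.Agent.P144DY
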