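import Vale.Agent.P144DD.Blk

/-!
Clusters on the lattice: the statement.
-/

namespace Vale.Agent.P144DY

open Vale.Agent.P144 Vale.Agent.P144Z Vale.Agent.P144DD

/-- The bound for a cluster of size `k * s` with separation `s`, deep inside a set of the class
`Raw` at the scale `r`. -/
def LatX (Raw : Finset Site → ℕ → Prop) (q : Par) (n m : ℕ) : Prop :=
  ∀ J lam β : ℝ, UL.Rel J lam β q → ∀ k Λ₀ : ℕ, ∃ (A : ℝ) (r₀ : ℕ), ∀ s r : ℕ, r₀ ≤ s →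
    r₀ * s ≤ r → ∀ (Λ : Finset Site) (b : Option Config) (x : Fin n → Site) (y : Fin m → Site)
      (j : Fin m → Fin 2), (b = none ∨ b = some fun _ => true) → Raw Λ r →
      (∀ v ∈ Λ, zd v 0 ≤ Λ₀ * r) → (∀ i v, zd v (Sum.elim x y i) ≤ r → v ∈ Λ) →
      (∀ i i', i ≠ i' → s < zd (Sum.elim x y i) (Sum.elim x y i')) →
      (∀ i i', zd (Sum.elim x y i) (Sum.elim x y i') ≤ k * s) →
        |lcor (gibbs J lam q.V β b Λ) x y j| * (s : ℝ) ^ ((n : ℝ) / 8) * (s : ℝ) ^ m ≤ A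

/-- The lattice form of block B. -/
def LatB : Prop :=
  ∃ ε₀ > (0 : ℝ), ∀ ε > (0 : ℝ), ε ≤ ε₀ → Ev fun L q =>
    ∀ (Raw : Finset Site → ℕ → Prop) (N k₀ : ℕ), (∀ k ≥ k₀, GeoF Raw (QU L ε k N) L) →
      ∀ n m : ℕ, n = 0 ∨ m = 0 → Even n → LatX Raw q n m

end Vale.Agent.P144DY
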